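import Vale.Agent.P329.Stmt

/-! Shared definitions for the proof that every regular language has generalized star height
at most three.  See notes/P329.md for the plan. Languages are handled as predicates on words. -/

namespace Vale.Agent.P329

variable {α Γ X M : Type}

/-- the predicate `p` describes a language of generalized star height at most `k` -/
def H (k : ℕ) (p : List α → Prop) : Prop :=
  ∃ P : GRE α, P.sh ≤ k ∧ ∀ w, w ∈ P.lang ↔ p w

def Cat (p q : List α → Prop) (w : List α) : Prop := ∃ a b, p a ∧ q b ∧ w = a ++ b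

def Star (p : List α → Prop) (w : List α) : Prop :=
  ∃ us : List (List α), (∀ u ∈ us, p u) ∧ w = us.flatten

/-- a concrete subclass of height one: only finite languages are starred -/
inductive F1 : (List α → Prop) → Prop
  | fin {p : List α → Prop} : {w | p w}.Finite → F1 p
  | starfin {p : List α → Prop} : {w | p w}.Finite → F1 (Star p)
  | or {p q : List α → Prop} : F1 p → F1 q → F1 (fun w => p w ∨ q w)
  | not {p : List α → Prop} : F1 p → F1 (fun w => ¬ p w)
  | cat {p q : List α → Prop} : F1 p → F1 q → F1 (Cat p q)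

/-- value of a word in a monoid -/
def val [Monoid M] (ψ : α → M) (w : List α) : M := (w.map ψ).prod

/-- all words of the language are periodic away from both ends -/
def Thin (p : List α → Prop) : Prop :=
  ∃ B q : ℕ, 0 < q ∧ ∀ w, p w → ∀ j, B ≤ j → j + q + B ≤ w.length → w[j]? = w[j + q]?

/-- nonempty words, none a proper initial segment of another -/
def PCode (U : List α → Prop) : Prop :=
  ¬ U [] ∧ ∀ u u' r r', U u → U u' → u ++ r = u' ++ r' → u = u'

/-- apply the actions of the units from left to right -/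
def run (π : List α → X → X) (us : List (List α)) (x : X) : X :=
  us.foldl (fun y u => π u y) x

/-- products of units that move the state `x` to the state `y` -/
def RunL (U : List α → Prop) (π : List α → X → X) (x y : X) (w : List α) : Prop :=
  ∃ us : List (List α), (∀ u ∈ us, U u) ∧ w = us.flatten ∧ run π us x = y

/-- a family of languages, pairwise disjoint, whose union is a `PCode` -/
def FCode (Lt : Γ → List α → Prop) : Prop :=
  (∀ γ, ¬ Lt γ []) ∧
    ∀ γ γ' u u' r r', Lt γ u → Lt γ' u' → u ++ r = u' ++ r' → u = u' ∧ γ = γ'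

/-- substitution of languages for the letters of a word -/
def subst (Lt : Γ → List α → Prop) (γs : List Γ) (w : List α) : Prop :=
  ∃ ws : List (List α), List.Forall₂ (fun γ u => Lt γ u) γs ws ∧ w = ws.flatten

def Sub (Lt : Γ → List α → Prop) (K : List Γ → Prop) (w : List α) : Prop :=
  ∃ γs, K γs ∧ subst Lt γs w

/-- marks that look only to the right (lookahead `R`), are `s`-separated, and are missing only
in periodic stretches -/
structure Marker (α : Type) (s : ℕ) where
  R : ℕ
  Mk : List α → Prop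
  R_pos : 0 < R
  len : ∀ v, Mk v → R ≤ v.length
  loc : ∀ v t, R ≤ v.length → (Mk (v ++ t) ↔ Mk v)
  sep : ∀ v d, Mk v → 0 < d → d < s → ¬ Mk (v.drop d)
  per : ∀ t, Thin (fun v : List α => ∀ i, t ≤ i → i + R < v.length → ¬ Mk (v.drop i))

namespace Marker
variable {s : ℕ} (μ : Marker α s)

/-- a round with threshold `t`: it ends `R` letters after the first mark at a position `≥ t` -/
def Rd (t : ℕ) (u : List α) : Prop :=
  t + μ.R ≤ u.length ∧ μ.Mk (u.drop (u.length - μ.R)) ∧
    ∀ i, t ≤ i → i + μ.R < u.length → ¬ μ.Mk (u.drop i)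

/-- an unfinished round -/
def Inc (t : ℕ) (u : List α) : Prop := ∀ i, t ≤ i → ¬ μ.Mk (u.drop i)

/-- position of the first mark is harmless -/
def Good (c1 c2 c3 Λ : ℕ) (u : List α) : Prop :=
  (∃ f < c1, μ.Mk (u.drop f)) ∨ (∀ f < c3, ¬ μ.Mk (u.drop f)) ∨
    (∃ f < c2, μ.Mk (u.drop f) ∧ f + Λ + μ.R ≤ u.length)

/-- the first mark is at `j` and the word ends `R` letters after the second mark -/
def Two (j : ℕ) (b : List α) : Prop :=
  μ.Mk (b.drop j) ∧ (∀ i < j, ¬ μ.Mk (b.drop i)) ∧ μ.Rd (j + 1) b

end Marker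

/-- bit vectors -/
abbrev V (X : Type) : Type := X → ZMod 2

open Classical in
/-- push a bit vector forward along a map -/
noncomputable def push [Finite X] (f : X → X) (ξ : V X) : V X :=
  fun y => ∑ᶠ x, if f x = y then ξ x else 0

/-- the clock with several hands -/
structure Clock (K G T : Type) where
  W : Type
  [ring : CommRing W]
  [fin : Finite W]
  v : W
  n : ℕ
  N : ℕ
  κ : K → W
  c : G → W
  lab : W → V T
  N_pos : 0 < N
  nail : ∀ w : W, ∃ g < N, ∀ i : ℕ, i % N = g → (i : W) = w
  sweep : ∀ (s : W) (t0 : V T) (t : K → V T) (r0 : ℕ), ∃ r, r0 ≤ r ∧ r < r0 + n ∧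
    ∀ k g k' g', (k' = k → g' ≠ g → lab (s + v ^ r * (κ k' - κ k + c g' - c g)) = t0) ∧
      (k' ≠ k → lab (s + v ^ r * (κ k' - κ k + c g' - c g)) = t k')

attribute [instance] Clock.ring Clock.fin

/-- the offer instants `I` and the isolated accepted readings `J` -/
structure Inst (N : ℕ) where
  a : ℕ
  I : Set ℕ
  J : Set ℕ
  N_le : N ≤ a
  I_lt : ∀ i ∈ I, i < a
  J_rng : ∀ j ∈ J, j < a ∨ 3 * a < j
  J_lt : ∀ j ∈ J, j < 5 * a
  low : ∀ i < N, i ∈ I
  high : ∀ i, i < a → a ≤ i + N → i ∈ I
  mid : ∀ t < N, ∀ g < N, ∃ i ∈ I, i % N = g ∧ i + N ≤ a ∧ 4 * a + t - i ∈ J ∧ a - N + t - i ∈ J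
  uniq : ∀ i ∈ I, ∀ i' ∈ I, ∀ j ∈ J, ∀ j' ∈ J, i + j = i' + j' → a ≤ i + j → i + j < 4 * a → i = i'

section top
variable [Monoid M]

/-- the clock used at the top level -/
abbrev TC (M : Type) : Type 1 := Clock (V M × M) M (M ⊕ M)

/-- action of a summary letter on (value so far, syndrome) -/
def stepG (C : TC M) (γ : M × C.W) (p : M × C.W) : M × C.W := (p.1 * γ.1, C.v * p.2 + γ.2)

def runG (C : TC M) (γs : List (M × C.W)) (p : M × C.W) : M × C.W :=
  γs.foldl (fun q γ => stepG C γ q) p

/-- the state the right side believes in, in the world `(k, g)`, after `d` further letters -/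
def bel (C : TC M) (k : V M × M) (g : M) (d : C.W) : M × C.W :=
  (k.2 * g, C.v * (C.κ k + d + C.c g))

/-- Interface of the small layer: letters (languages of height one) that can be cut. -/
structure Letters (φ : α → M) (C : TC M) where
  Lt : M × C.W → List α → Prop
  Off : M × C.W → V M × M → List α → Prop
  Acc : C.W → List α → Prop
  Tl : List α → Prop
  code : FCode Lt
  hLt : ∀ γ, H 1 (Lt γ)
  hOff : ∀ p k, H 1 (Off p k)
  hAcc : ∀ d, H 1 (Acc d)
  hTl : ∀ m, H 1 (fun w => Tl w ∧ val φ w = m)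
  valLt : ∀ γ u, Lt γ u → val φ u = γ.1
  dec : ∀ w, ∃ γs w1 w2, subst Lt γs w1 ∧ Tl w2 ∧ w = w1 ++ w2
  sound : ∀ p k d γ a b l, Off p k a → Acc d b → Lt γ l →
    ∃ g γs, (γs.length = 1 ∨ γs.length = 2) ∧ subst Lt γs (a ++ b ++ l) ∧
      runG C γs p = stepG C γ (bel C k g d)
  complete : ∀ p x γ l, Lt γ l → ∃ P g d a b, l = a ++ b ∧ Off p (x, P) a ∧ Acc d b ∧
      stepG C γ p = bel C (x, P) g d

end top

end Vale.Agent.P329
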